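import Mathlib
import Vale.Agent.Lib.P160.RV.Defs

/-!
# P160: the kill lemma for the rare-values theorem

Finite combinatorics of the level sets of a vector `v : Fin n → ℝ` with `m` distinct values,
fewer than `m / 4` of which are rare (taken fewer than `8` times).

* `six_mul_le`: then `6 m ≤ n`.
* `kill_lemma`: after the removal of an index set `I` with fewer than `m` elements, the remaining
  coordinates still have at least `m / 4` distinct nonzero absolute values.
-/

namespace Vale.Agent.Lib.P160.H45

open Finset Vale.Agent.Lib.P160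

/-- A vector with `m` distinct values, fewer than `m / 4` of them rare, has at least `6 m`
coordinates. -/
theorem six_mul_le {n m : ℕ} (v : Fin n → ℝ) (hm : (univ.image v).card = m)
    (hr : 4 * ((univ.image v).filter fun y => (univ.filter fun j => v j = y).card < 8).card < m) :
    6 * m ≤ n := by
  classical
  have hn : n = ∑ y ∈ univ.image v, (univ.filter fun j => v j = y).card := by
    have h := card_eq_sum_card_image v (univ : Finset (Fin n))
    rw [card_univ, Fintype.card_fin] at h
    exact h
  have hsplit := card_filter_add_card_filter_not (s := univ.image v)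
    (fun y => (univ.filter fun j => v j = y).card < 8)
  have h1 : ∑ y ∈ (univ.image v).filter
        (fun y => ¬ (univ.filter fun j => v j = y).card < 8),
        (univ.filter fun j => v j = y).card
      ≤ ∑ y ∈ univ.image v, (univ.filter fun j => v j = y).card :=
    sum_le_sum_of_subset (filter_subset _ _)
  have h2 : ((univ.image v).filter
        (fun y => ¬ (univ.filter fun j => v j = y).card < 8)).card * 8
      ≤ ∑ y ∈ (univ.image v).filter
        (fun y => ¬ (univ.filter fun j => v j = y).card < 8),
        (univ.filter fun j => v j = y).card := by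
    rw [← smul_eq_mul]
    refine card_nsmul_le_sum _ _ _ (fun y hy => ?_)
    have h := (mem_filter.1 hy).2
    omega
  omega

/-- The core of the kill lemma, for any set `A` that contains the absolute values of the nonzero
coordinates outside `I`. -/
theorem kill_core {n m : ℕ} (v : Fin n → ℝ) (I : Finset (Fin n))
    (hm : (univ.image v).card = m)
    (hr : 4 * ((univ.image v).filter fun y => (univ.filter fun j => v j = y).card < 8).card < m)
    (hI : I.card < m) (h5 : 5 ≤ m) (A : Finset ℝ)
    (hmem : ∀ j : Fin n, j ∉ I → v j ≠ 0 → |v j| ∈ A) :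
    m / 4 ≤ A.card := by
  classical
  obtain ⟨V, hV⟩ : ∃ V : Finset ℝ, V = univ.image v := ⟨_, rfl⟩
  obtain ⟨R, hR⟩ : ∃ R : Finset ℝ,
      R = V.filter (fun y => (univ.filter fun j => v j = y).card < 8) := ⟨_, rfl⟩
  obtain ⟨S, hS⟩ : ∃ S : Finset ℝ, S = V.filter (fun y => ∃ j, j ∉ I ∧ v j = y) := ⟨_, rfl⟩
  obtain ⟨K, hK⟩ : ∃ K : Finset ℝ, K = V.filter (fun y =>
      ¬ (univ.filter fun j => v j = y).card < 8 ∧ ¬ ∃ j, j ∉ I ∧ v j = y) := ⟨_, rfl⟩
  rw [← hV] at hm hr
  rw [← hR] at hr
  -- every value survives, is rare, or is a non-rare value killed by `I`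
  have hcover : V ⊆ S ∪ R ∪ K := by
    intro y hy
    by_cases h1 : ∃ j, j ∉ I ∧ v j = y
    · exact mem_union_left _ (mem_union_left _ (by rw [hS]; exact mem_filter.2 ⟨hy, h1⟩))
    · by_cases h2 : (univ.filter fun j => v j = y).card < 8
      · exact mem_union_left _ (mem_union_right _ (by rw [hR]; exact mem_filter.2 ⟨hy, h2⟩))
      · exact mem_union_right _ (by rw [hK]; exact mem_filter.2 ⟨hy, h2, h1⟩)
  have hcard1 : m ≤ S.card + R.card + K.card := by
    rw [← hm]
    have e1 : V.card ≤ (S ∪ R ∪ K).card := card_le_card hcover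
    have e2 : (S ∪ R ∪ K).card ≤ (S ∪ R).card + K.card := card_union_le _ _
    have e3 : (S ∪ R).card ≤ S.card + R.card := card_union_le _ _
    omega
  -- the killed non-rare values have disjoint fibres of size at least `8` inside `I`
  have hK8 : 8 * K.card ≤ I.card := by
    have h1 : I.card = ∑ b ∈ I.image v, (I.filter fun a => v a = b).card :=
      card_eq_sum_card_image v I
    have hsub : K ⊆ I.image v := by
      intro y hy
      rw [hK] at hy
      obtain ⟨hyV, -, hns⟩ := mem_filter.1 hy
      rw [hV] at hyV
      obtain ⟨j, -, rfl⟩ := mem_image.1 hyV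
      have hjI : j ∈ I := by
        by_contra hj
        exact hns ⟨j, hj, rfl⟩
      exact mem_image.2 ⟨j, hjI, rfl⟩
    have h2 : ∑ b ∈ K, (I.filter fun a => v a = b).card
        ≤ ∑ b ∈ I.image v, (I.filter fun a => v a = b).card := sum_le_sum_of_subset hsub
    have h3 : K.card * 8 ≤ ∑ b ∈ K, (I.filter fun a => v a = b).card := by
      rw [← smul_eq_mul]
      refine card_nsmul_le_sum _ _ _ (fun y hy => ?_)
      rw [hK] at hy
      obtain ⟨-, h8, hns⟩ := mem_filter.1 hy
      have heq : (I.filter fun a => v a = y) = univ.filter fun j => v j = y := by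
        ext a
        simp only [mem_filter, mem_univ, true_and]
        constructor
        · exact fun h => h.2
        · intro h
          refine ⟨?_, h⟩
          by_contra ha
          exact hns ⟨a, ha, h⟩
      rw [heq]
      omega
    omega
  -- every survivor is `0`, an element of `A`, or the negative of one
  have hSA : S ⊆ A ∪ A.image (fun x => -x) ∪ {0} := by
    intro y hy
    rw [hS] at hy
    obtain ⟨-, j, hjI, rfl⟩ := mem_filter.1 hy
    by_cases h0 : v j = 0
    · exact mem_union_right _ (by rw [h0]; exact mem_singleton_self 0)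
    · have habs : |v j| ∈ A := hmem j hjI h0
      rcases abs_choice (v j) with h | h
      · refine mem_union_left _ (mem_union_left _ ?_)
        rw [← h]
        exact habs
      · refine mem_union_left _ (mem_union_right _ (mem_image.2 ⟨|v j|, habs, ?_⟩))
        rw [h, neg_neg]
  have hcard3 : S.card ≤ 2 * A.card + 1 := by
    have e1 : S.card ≤ (A ∪ A.image (fun x => -x) ∪ {0}).card := card_le_card hSA
    have e2 : (A ∪ A.image (fun x => -x) ∪ {0}).card
        ≤ (A ∪ A.image (fun x => -x)).card + ({0} : Finset ℝ).card := card_union_le _ _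
    have e3 : (A ∪ A.image (fun x => -x)).card ≤ A.card + (A.image (fun x => -x)).card :=
      card_union_le _ _
    have e4 : (A.image (fun x : ℝ => -x)).card ≤ A.card := card_image_le
    have e5 : ({0} : Finset ℝ).card = 1 := card_singleton 0
    omega
  omega

/-- **The kill lemma.** -/
theorem kill_lemma {n m : ℕ} (v : Fin n → ℝ) (I : Finset (Fin n))
    (hm : (univ.image v).card = m)
    (hr : 4 * ((univ.image v).filter fun y => (univ.filter fun j => v j = y).card < 8).card < m)
    (hI : I.card < m) (h5 : 5 ≤ m) :
    m / 4 ≤ dabs (fun j : {k // k ∈ (univ : Finset (Fin n)) \ I} => v j.1) := by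
  unfold dabs
  refine kill_core v I hm hr hI h5 _ ?_
  intro j hjI h0
  have hjm : j ∈ (univ : Finset (Fin n)) \ I := mem_sdiff.2 ⟨mem_univ j, hjI⟩
  exact mem_image.2 ⟨⟨j, hjm⟩, mem_filter.2 ⟨mem_univ _, h0⟩, rfl⟩

end Vale.Agent.Lib.P160.H45
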