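import Mathlib
import Vale.Agent.Lib.P160.helper4.SSDefs

/-!
# P160: structure of the weights `qq` of the lazy chain on subsets of `Fin n`

A move with nonzero weight is a hop `k -> k + 1` or an entry at the index `0`; a hop keeps the
number of elements and an entry raises it by one; both raise the sum of an increasing positive
weight.  The total weights out of and into a set are the explicit sums `outF` and `inF`.
-/

namespace Vale.Agent.Lib.P160.H45

open Finset Vale.Agent.Lib.P160.H4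

/-- A sum of indicators whose condition determines the index. -/
theorem sum_ite_cond {α : Type*} [Fintype α] [DecidableEq α] (P : α → Prop) [DecidablePred P]
    (Q : Prop) [Decidable Q] (T : α) (w : ℝ) (h : ∀ x, P x ↔ (Q ∧ x = T)) :
    ∑ x, (if P x then w else 0) = if Q then w else 0 := by
  have e : ∀ x, (if P x then w else 0) = if x = T then (if Q then w else 0) else 0 := by
    intro x
    by_cases hx : x = T
    · by_cases hQ : Q
      · rw [if_pos hx, if_pos hQ, if_pos ((h x).2 ⟨hQ, hx⟩)]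
      · rw [if_pos hx, if_neg hQ, if_neg (fun hp => hQ ((h x).1 hp).1)]
    · rw [if_neg hx, if_neg (fun hp => hx ((h x).1 hp).2)]
  rw [Finset.sum_congr rfl (fun x _ => e x), Finset.sum_ite_eq']
  simp

/-- The weight of a hop is nonnegative. -/
theorem hop_weight_nonneg {n : ℕ} (j : Fin n) : (0 : ℝ) ≤ 1 - (j.val : ℝ) / n := by
  have hn : (0 : ℝ) < n := by
    have : 0 < n := Nat.lt_of_le_of_lt (Nat.zero_le _) j.isLt
    exact_mod_cast this
  have hj : (j.val : ℝ) ≤ n := by exact_mod_cast j.isLt.le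
  have : (j.val : ℝ) / n ≤ 1 := (div_le_one hn).2 hj
  linarith

theorem qq_nonneg (n : ℕ) (S S' : Finset (Fin n)) : 0 ≤ qq n S S' := by
  unfold qq
  refine add_nonneg (Finset.sum_nonneg fun k _ => Finset.sum_nonneg fun j _ => ?_)
    (Finset.sum_nonneg fun j _ => ?_)
  · split_ifs
    · exact hop_weight_nonneg j
    · exact le_rfl
  · split_ifs
    · norm_num
    · exact le_rfl

/-- A move of nonzero weight is a hop or an entry. -/
theorem qq_cases (n : ℕ) (S S' : Finset (Fin n)) (h : qq n S S' ≠ 0) :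
    (∃ k j : Fin n, j.val = k.val + 1 ∧ k ∈ S ∧ j ∉ S ∧ S' = insert j (S.erase k)) ∨
      (∃ j : Fin n, j.val = 0 ∧ j ∉ S ∧ S' = insert j S) := by
  by_contra hne
  rw [not_or] at hne
  apply h
  unfold qq
  have h1 : (∑ k : Fin n, ∑ j : Fin n,
      if j.val = k.val + 1 ∧ k ∈ S ∧ j ∉ S ∧ S' = insert j (S.erase k)
        then 1 - (j.val : ℝ) / n else 0) = 0 := by
    refine Finset.sum_eq_zero fun k _ => Finset.sum_eq_zero fun j _ => ?_
    rw [if_neg]
    exact fun hc => hne.1 ⟨k, j, hc⟩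
  have h2 : (∑ j : Fin n, if j.val = 0 ∧ j ∉ S ∧ S' = insert j S then (1 / 2 : ℝ) else 0) = 0 := by
    refine Finset.sum_eq_zero fun j _ => ?_
    rw [if_neg]
    exact fun hc => hne.2 ⟨j, hc⟩
  rw [h1, h2, add_zero]

theorem qq_lt (n : ℕ) (a : Fin n → ℝ) (ha : ∀ i, 0 < a i) (hm : StrictMono a)
    (S S' : Finset (Fin n)) (h : qq n S S' ≠ 0) : ∑ i ∈ S, a i < ∑ i ∈ S', a i := by
  rcases qq_cases n S S' h with ⟨k, j, hjk, hk, hj, rfl⟩ | ⟨j, -, hj, rfl⟩
  · have hj' : j ∉ S.erase k := fun hc => hj (Finset.mem_of_mem_erase hc)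
    rw [Finset.sum_insert hj', Finset.sum_erase_eq_sub hk]
    have hlt : a k < a j := hm (by rw [Fin.lt_def]; omega)
    linarith
  · rw [Finset.sum_insert hj]
    linarith [ha j]

theorem qq_card (n : ℕ) (S' S : Finset (Fin n)) (h : qq n S' S ≠ 0) :
    S'.card = S.card ∨ S'.card + 1 = S.card := by
  rcases qq_cases n S' S h with ⟨k, j, hjk, hk, hj, rfl⟩ | ⟨j, -, hj, rfl⟩
  · left
    have hj' : j ∉ S'.erase k := fun hc => hj (Finset.mem_of_mem_erase hc)
    rw [Finset.card_insert_of_notMem hj', Finset.card_erase_of_mem hk]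
    have : 0 < S'.card := Finset.card_pos.2 ⟨k, hk⟩
    omega
  · right
    rw [Finset.card_insert_of_notMem hj]

/-- Total weight of the hops out of `S`. -/
theorem hop_out (n : ℕ) (S : Finset (Fin n)) :
    ∑ S' : Finset (Fin n), (∑ k : Fin n, ∑ j : Fin n,
      if j.val = k.val + 1 ∧ k ∈ S ∧ j ∉ S ∧ S' = insert j (S.erase k)
        then 1 - (j.val : ℝ) / n else 0)
      = ∑ k : Fin n, ∑ j : Fin n,
        if j.val = k.val + 1 ∧ k ∈ S ∧ j ∉ S then 1 - (j.val : ℝ) / n else 0 := by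
  rw [Finset.sum_comm]
  refine Finset.sum_congr rfl fun k _ => ?_
  rw [Finset.sum_comm]
  refine Finset.sum_congr rfl fun j _ => ?_
  refine sum_ite_cond _ _ (insert j (S.erase k)) _ fun x => ?_
  constructor
  · rintro ⟨h1, h2, h3, h4⟩
    exact ⟨⟨h1, h2, h3⟩, h4⟩
  · rintro ⟨⟨h1, h2, h3⟩, h4⟩
    exact ⟨h1, h2, h3, h4⟩

/-- Total weight of the entries out of `S`. -/
theorem entry_out (n : ℕ) (S : Finset (Fin n)) :
    ∑ S' : Finset (Fin n),
        (∑ j : Fin n, if j.val = 0 ∧ j ∉ S ∧ S' = insert j S then (1 / 2 : ℝ) else 0)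
      = ∑ j : Fin n, if j.val = 0 ∧ j ∉ S then (1 / 2 : ℝ) else 0 := by
  rw [Finset.sum_comm]
  refine Finset.sum_congr rfl fun j _ => ?_
  refine sum_ite_cond _ _ (insert j S) _ fun x => ?_
  constructor
  · rintro ⟨h1, h2, h3⟩
    exact ⟨⟨h1, h2⟩, h3⟩
  · rintro ⟨⟨h1, h2⟩, h3⟩
    exact ⟨h1, h2, h3⟩

/-- Total weight of the hops into `S`. -/
theorem hop_in (n : ℕ) (S : Finset (Fin n)) :
    ∑ S' : Finset (Fin n), (∑ k : Fin n, ∑ j : Fin n,
      if j.val = k.val + 1 ∧ k ∈ S' ∧ j ∉ S' ∧ S = insert j (S'.erase k)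
        then 1 - (j.val : ℝ) / n else 0)
      = ∑ k : Fin n, ∑ j : Fin n,
        if j.val = k.val + 1 ∧ k ∉ S ∧ j ∈ S then 1 - (j.val : ℝ) / n else 0 := by
  rw [Finset.sum_comm]
  refine Finset.sum_congr rfl fun k _ => ?_
  rw [Finset.sum_comm]
  refine Finset.sum_congr rfl fun j _ => ?_
  refine sum_ite_cond _ _ (insert k (S.erase j)) _ fun x => ?_
  constructor
  · rintro ⟨h1, h2, h3, h4⟩
    have hjk : j ≠ k := by
      intro hc
      rw [hc] at h1
      omega
    have hj' : j ∉ x.erase k := fun hc => h3 (Finset.mem_of_mem_erase hc)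
    refine ⟨⟨h1, ?_, ?_⟩, ?_⟩
    · rw [h4]
      intro hc
      rcases Finset.mem_insert.1 hc with hc | hc
      · exact hjk hc.symm
      · exact (Finset.notMem_erase k x) hc
    · rw [h4]
      exact Finset.mem_insert_self j _
    · rw [h4, Finset.erase_insert hj', Finset.insert_erase h2]
  · rintro ⟨⟨h1, h2, h3⟩, h4⟩
    have hjk : j ≠ k := by
      intro hc
      rw [hc] at h1
      omega
    have hk' : k ∉ S.erase j := fun hc => h2 (Finset.mem_of_mem_erase hc)
    refine ⟨h1, ?_, ?_, ?_⟩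
    · rw [h4]
      exact Finset.mem_insert_self k _
    · rw [h4]
      intro hc
      rcases Finset.mem_insert.1 hc with hc | hc
      · exact hjk hc
      · exact (Finset.notMem_erase j S) hc
    · rw [h4, Finset.erase_insert hk', Finset.insert_erase h3]

/-- Total weight of the entries into `S`. -/
theorem entry_in (n : ℕ) (S : Finset (Fin n)) :
    ∑ S' : Finset (Fin n),
        (∑ j : Fin n, if j.val = 0 ∧ j ∉ S' ∧ S = insert j S' then (1 / 2 : ℝ) else 0)
      = ∑ j : Fin n, if j.val = 0 ∧ j ∈ S then (1 / 2 : ℝ) else 0 := by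
  rw [Finset.sum_comm]
  refine Finset.sum_congr rfl fun j _ => ?_
  refine sum_ite_cond _ _ (S.erase j) _ fun x => ?_
  constructor
  · rintro ⟨h1, h2, h3⟩
    refine ⟨⟨h1, ?_⟩, ?_⟩
    · rw [h3]
      exact Finset.mem_insert_self j _
    · rw [h3, Finset.erase_insert h2]
  · rintro ⟨⟨h1, h2⟩, h3⟩
    refine ⟨h1, ?_, ?_⟩
    · rw [h3]
      exact Finset.notMem_erase j S
    · rw [h3, Finset.insert_erase h2]

theorem qq_out_eq (n : ℕ) (S : Finset (Fin n)) : ∑ S', qq n S S' = outF n S := by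
  unfold qq outF
  rw [Finset.sum_add_distrib, hop_out, entry_out]

theorem qq_in_eq (n : ℕ) (S : Finset (Fin n)) : ∑ S', qq n S' S = inF n S := by
  unfold qq inF
  rw [Finset.sum_add_distrib, hop_in, entry_in]

/-- At most one index has value `0`. -/
theorem sum_val_zero_le (n : ℕ) :
    ∑ j : Fin n, (if j.val = 0 then (1 / 2 : ℝ) else 0) ≤ 1 / 2 := by
  rcases Nat.eq_zero_or_pos n with hn | hn
  · subst hn
    simp
  · have e : ∀ j : Fin n, (if j.val = 0 then (1 / 2 : ℝ) else 0)
        = if j = ⟨0, hn⟩ then (1 / 2 : ℝ) else 0 := by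
      intro j
      by_cases hj : j.val = 0
      · rw [if_pos hj, if_pos (Fin.ext hj)]
      · rw [if_neg hj, if_neg (fun hc => hj (by rw [hc]))]
    rw [Finset.sum_congr rfl (fun j _ => e j), Finset.sum_ite_eq']
    simp

theorem qq_entry (n : ℕ) (S : Finset (Fin n)) :
    ∑ S' ∈ univ.filter (fun S' : Finset (Fin n) => S'.card + 1 = S.card), qq n S' S ≤ 1 / 2 := by
  have h1 : ∀ S' ∈ univ.filter (fun S' : Finset (Fin n) => S'.card + 1 = S.card),
      qq n S' S = ∑ j : Fin n, if j.val = 0 ∧ j ∉ S' ∧ S = insert j S' then (1 / 2 : ℝ) else 0 := by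
    intro S' hS'
    have hc : S'.card + 1 = S.card := (Finset.mem_filter.1 hS').2
    unfold qq
    have h0 : (∑ k : Fin n, ∑ j : Fin n,
        if j.val = k.val + 1 ∧ k ∈ S' ∧ j ∉ S' ∧ S = insert j (S'.erase k)
          then 1 - (j.val : ℝ) / n else 0) = 0 := by
      refine Finset.sum_eq_zero fun k _ => Finset.sum_eq_zero fun j _ => ?_
      rw [if_neg]
      rintro ⟨-, hk, hj, hS⟩
      have hj' : j ∉ S'.erase k := fun hc => hj (Finset.mem_of_mem_erase hc)
      rw [hS, Finset.card_insert_of_notMem hj', Finset.card_erase_of_mem hk] at hc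
      have : 0 < S'.card := Finset.card_pos.2 ⟨k, hk⟩
      omega
    rw [h0, zero_add]
  rw [Finset.sum_congr rfl h1]
  have h2 : ∑ S' ∈ univ.filter (fun S' : Finset (Fin n) => S'.card + 1 = S.card),
      (∑ j : Fin n, if j.val = 0 ∧ j ∉ S' ∧ S = insert j S' then (1 / 2 : ℝ) else 0)
      ≤ ∑ S' : Finset (Fin n),
        (∑ j : Fin n, if j.val = 0 ∧ j ∉ S' ∧ S = insert j S' then (1 / 2 : ℝ) else 0) := by
    refine Finset.sum_le_sum_of_subset_of_nonneg (Finset.filter_subset _ _) fun S' _ _ => ?_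
    refine Finset.sum_nonneg fun j _ => ?_
    split_ifs
    · norm_num
    · exact le_rfl
  refine h2.trans ?_
  rw [entry_in]
  refine le_trans (Finset.sum_le_sum fun j _ => ?_) (sum_val_zero_le n)
  by_cases hj : j.val = 0
  · rw [if_pos hj]
    split_ifs
    · exact le_rfl
    · norm_num
  · rw [if_neg hj, if_neg (fun hc => hj hc.1)]

end Vale.Agent.Lib.P160.H45
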