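import Mathlib
import Vale.Agent.Lib.P160.RV.Defs

/-!
# P160: a vector takes at most `2 * dabs + 1` values on an index set

Every value of `v` on `T` is `0`, one of the distinct absolute values of the nonzero coordinates
on `T`, or the negative of one of them.
-/

namespace Vale.Agent.Lib.P160.H45

open Finset Vale.Agent.Lib.P160

/-- The count of values, for any set `A` that contains the absolute values of the nonzero
coordinates on `T`. -/
theorem card_image_le_core {n : ℕ} (v : Fin n → ℝ) (T : Finset (Fin n)) (A : Finset ℝ)
    (hmem : ∀ j ∈ T, v j ≠ 0 → |v j| ∈ A) : (T.image v).card ≤ 2 * A.card + 1 := by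
  have hsub : T.image v ⊆ A ∪ A.image (fun x => -x) ∪ {0} := by
    intro y hy
    obtain ⟨j, hjT, rfl⟩ := mem_image.1 hy
    by_cases h0 : v j = 0
    · exact mem_union_right _ (by rw [h0]; exact mem_singleton_self 0)
    · have habs : |v j| ∈ A := hmem j hjT h0
      rcases abs_choice (v j) with h | h
      · refine mem_union_left _ (mem_union_left _ ?_)
        rw [← h]
        exact habs
      · refine mem_union_left _ (mem_union_right _ (mem_image.2 ⟨|v j|, habs, ?_⟩))
        rw [h, neg_neg]
  have e1 : (T.image v).card ≤ (A ∪ A.image (fun x => -x) ∪ {0}).card := card_le_card hsub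
  have e2 : (A ∪ A.image (fun x => -x) ∪ {0}).card
      ≤ (A ∪ A.image (fun x => -x)).card + ({0} : Finset ℝ).card := card_union_le _ _
  have e3 : (A ∪ A.image (fun x => -x)).card ≤ A.card + (A.image (fun x => -x)).card :=
    card_union_le _ _
  have e4 : (A.image (fun x : ℝ => -x)).card ≤ A.card := card_image_le
  have e5 : ({0} : Finset ℝ).card = 1 := card_singleton 0
  omega

/-- A vector takes at most `2 * dabs + 1` values on `T`. -/
theorem card_image_le_dabs {n : ℕ} (v : Fin n → ℝ) (T : Finset (Fin n)) :
    (T.image v).card ≤ 2 * dabs (fun j : {k // k ∈ T} => v j.1) + 1 := by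
  unfold dabs
  refine card_image_le_core v T _ ?_
  intro j hjT h0
  exact mem_image.2 ⟨⟨j, hjT⟩, mem_filter.2 ⟨mem_univ _, h0⟩, rfl⟩

end Vale.Agent.Lib.P160.H45
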