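import Mathlib
import Vale.Agent.Lib.P160.helper4.SSDefs
import Vale.Agent.Lib.P160.helper44.ChainLevel
import Vale.Agent.Lib.P160.helper45.ChainWeights

/-!
# P160, piece SS-4 (backup copy): the subset sum bound from the chain lemma

Assembly of the abstract chain lemma (`H44.chain_level`), the structure of the chain weights
(file `ChainWeights`), and, as hypotheses, the statements of the pieces SS-2b (`inF - outF`,
`outF ≤ n`, `desc / 2 ≤ outF`) and SS-3 (few sets have few descents): the number of subsets of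
`Fin n` with a prescribed sum of an increasing positive weight is at most `C 2 ^ n / n ^ (3 / 2)`.
-/

namespace Vale.Agent.Lib.P160.H45

open Finset Vale.Agent.Lib.P160.H4

/-- Level sets of the subset sum among the sets of size at least `n / 2 - sqrt n`. -/
theorem level_big
    (h2b1 : ∀ (n : ℕ), 1 ≤ n → ∀ S : Finset (Fin n),
      inF n S - outF n S = ((S.card : ℝ) - n / 2) / n)
    (h2b2 : ∀ (n : ℕ) (S : Finset (Fin n)), outF n S ≤ n)
    (h2b3 : ∀ (n : ℕ) (S : Finset (Fin n)), (desc n S : ℝ) / 2 ≤ outF n S)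
    (C3 : ℝ) (hC3 : ∀ n : ℕ,
      (((univ : Finset (Finset (Fin n))).filter fun S => 128 * desc n S < n).card : ℝ) *
        ((n : ℝ) * Real.sqrt n) ≤ C3 * 2 ^ n)
    (n : ℕ) (hn : 16 ≤ n) (a : Fin n → ℝ) (ha : ∀ i, 0 < a i) (hm : StrictMono a) (y : ℝ) :
    (((univ : Finset (Finset (Fin n))).filter fun S =>
        ∑ i ∈ S, a i = y ∧ (n : ℝ) / 2 - Real.sqrt n ≤ (S.card : ℝ)).card : ℝ) *
      ((n : ℝ) * Real.sqrt n) ≤ (2560 + C3) * 2 ^ n := by
  have hn' : (16 : ℝ) ≤ n := by exact_mod_cast hn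
  have hs0 : 0 ≤ Real.sqrt n := Real.sqrt_nonneg _
  have hchain := H44.chain_level (qq n) (fun S : Finset (Fin n) => ∑ i ∈ S, a i)
    (fun S : Finset (Fin n) => S.card) n hn (qq_nonneg n) (qq_lt n a ha hm) (qq_card n)
    (qq_entry n)
    (fun S => by rw [qq_in_eq, qq_out_eq]; exact h2b1 n (by omega) S)
    (fun S => by rw [qq_out_eq]; exact h2b2 n S)
    (fun S => by
      have h := Finset.card_le_univ S
      rwa [Fintype.card_fin] at h) y
  rw [Fintype.card_finset, Fintype.card_fin] at hchain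
  rw [Finset.sum_congr rfl (fun S _ => qq_out_eq n S)] at hchain
  obtain ⟨B, hB⟩ : ∃ B : Finset (Finset (Fin n)), B = (univ : Finset (Finset (Fin n))).filter
      fun S => ∑ i ∈ S, a i = y ∧ (n : ℝ) / 2 - Real.sqrt n ≤ (S.card : ℝ) := ⟨_, rfl⟩
  rw [← hB] at hchain ⊢
  have hout0 : ∀ S : Finset (Fin n), 0 ≤ outF n S := fun S =>
    le_trans (by positivity) (h2b3 n S)
  -- the good sets of `B`
  have hgood : ((B.filter fun S => n ≤ 128 * desc n S).card : ℝ) * ((n : ℝ) / 256)
      ≤ ∑ S ∈ B, outF n S := by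
    have h1 : ((B.filter fun S => n ≤ 128 * desc n S).card : ℝ) * ((n : ℝ) / 256)
        ≤ ∑ S ∈ B.filter fun S => n ≤ 128 * desc n S, outF n S := by
      rw [← nsmul_eq_mul]
      refine Finset.card_nsmul_le_sum _ _ _ (fun S hS => ?_)
      have hd : n ≤ 128 * desc n S := (Finset.mem_filter.1 hS).2
      have hd' : (n : ℝ) ≤ 128 * (desc n S : ℝ) := by exact_mod_cast hd
      have := h2b3 n S
      linarith
    exact h1.trans (Finset.sum_le_sum_of_subset_of_nonneg (Finset.filter_subset _ _)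
      (fun S _ _ => hout0 S))
  -- split `B` into good and bad sets
  have hsplit : (B.card : ℝ) ≤ ((B.filter fun S => n ≤ 128 * desc n S).card : ℝ)
      + (((univ : Finset (Finset (Fin n))).filter fun S => 128 * desc n S < n).card : ℝ) := by
    have hsub : B ⊆ (B.filter fun S => n ≤ 128 * desc n S)
        ∪ ((univ : Finset (Finset (Fin n))).filter fun S => 128 * desc n S < n) := by
      intro S hS
      by_cases hd : n ≤ 128 * desc n S
      · exact Finset.mem_union_left _ (Finset.mem_filter.2 ⟨hS, hd⟩)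
      · exact Finset.mem_union_right _ (Finset.mem_filter.2 ⟨Finset.mem_univ _, not_le.1 hd⟩)
    have h := (Finset.card_le_card hsub).trans (Finset.card_union_le _ _)
    exact_mod_cast h
  have hbad := hC3 n
  have hpow : (0 : ℝ) < 2 ^ n := by positivity
  have hsq : Real.sqrt n * Real.sqrt n = n := Real.mul_self_sqrt (by linarith)
  -- arithmetic
  have hg2 : ((B.filter fun S => n ≤ 128 * desc n S).card : ℝ) * ((n : ℝ) * Real.sqrt n)
      ≤ 2560 * 2 ^ n := by
    have h1 : Real.sqrt n * (((B.filter fun S => n ≤ 128 * desc n S).card : ℝ) * ((n : ℝ) / 256))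
        ≤ Real.sqrt n * ∑ S ∈ B, outF n S := mul_le_mul_of_nonneg_left hgood hs0
    have h2 : Real.sqrt n * (((B.filter fun S => n ≤ 128 * desc n S).card : ℝ) * ((n : ℝ) / 256))
        ≤ 10 * (2 : ℝ) ^ n := by
      refine h1.trans ?_
      exact_mod_cast hchain
    nlinarith
  have hfin : (B.card : ℝ) * ((n : ℝ) * Real.sqrt n)
      ≤ (((B.filter fun S => n ≤ 128 * desc n S).card : ℝ)
        + (((univ : Finset (Finset (Fin n))).filter fun S => 128 * desc n S < n).card : ℝ))
        * ((n : ℝ) * Real.sqrt n) :=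
    mul_le_mul_of_nonneg_right hsplit (by positivity)
  nlinarith

/-- **The subset sum bound**, from the statements of the pieces SS-2b and SS-3. -/
theorem subset_sum_of
    (h2b1 : ∀ (n : ℕ), 1 ≤ n → ∀ S : Finset (Fin n),
      inF n S - outF n S = ((S.card : ℝ) - n / 2) / n)
    (h2b2 : ∀ (n : ℕ) (S : Finset (Fin n)), outF n S ≤ n)
    (h2b3 : ∀ (n : ℕ) (S : Finset (Fin n)), (desc n S : ℝ) / 2 ≤ outF n S)
    (h3 : ∃ C : ℝ, 0 < C ∧ ∀ n : ℕ,
      (((univ : Finset (Finset (Fin n))).filter fun S => 128 * desc n S < n).card : ℝ) *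
        ((n : ℝ) * Real.sqrt n) ≤ C * 2 ^ n) :
    ∃ C : ℝ, 0 < C ∧ ∀ (n : ℕ) (a : Fin n → ℝ), (∀ i, 0 < a i) →
    StrictMono a → ∀ x : ℝ,
    (((univ : Finset (Finset (Fin n))).filter fun S => ∑ i ∈ S, a i = x).card : ℝ) *
      ((n : ℝ) * Real.sqrt n) ≤ C * 2 ^ n := by
  obtain ⟨C3, hC3pos, hC3⟩ := h3
  refine ⟨64 + 2 * (2560 + C3), by positivity, ?_⟩
  intro n a ha hm x
  have hpow : (0 : ℝ) < 2 ^ n := by positivity
  have hs0 : 0 ≤ Real.sqrt n := Real.sqrt_nonneg _
  have hn0 : (0 : ℝ) ≤ n := Nat.cast_nonneg n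
  by_cases hn : 16 ≤ n
  · have hb1 := level_big h2b1 h2b2 h2b3 C3 hC3 n hn a ha hm x
    have hb2 := level_big h2b1 h2b2 h2b3 C3 hC3 n hn a ha hm (∑ i, a i - x)
    have hsplit : (((univ : Finset (Finset (Fin n))).filter fun S => ∑ i ∈ S, a i = x).card : ℝ)
        ≤ (((univ : Finset (Finset (Fin n))).filter fun S =>
            ∑ i ∈ S, a i = x ∧ (n : ℝ) / 2 - Real.sqrt n ≤ (S.card : ℝ)).card : ℝ)
          + (((univ : Finset (Finset (Fin n))).filter fun S =>
            ∑ i ∈ S, a i = ∑ i, a i - x ∧ (n : ℝ) / 2 - Real.sqrt n ≤ (S.card : ℝ)).card : ℝ) := by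
      have hsub : ((univ : Finset (Finset (Fin n))).filter fun S => ∑ i ∈ S, a i = x)
          ⊆ ((univ : Finset (Finset (Fin n))).filter fun S =>
              ∑ i ∈ S, a i = x ∧ (n : ℝ) / 2 - Real.sqrt n ≤ (S.card : ℝ))
            ∪ (((univ : Finset (Finset (Fin n))).filter fun S =>
              ∑ i ∈ S, a i = ∑ i, a i - x ∧ (n : ℝ) / 2 - Real.sqrt n ≤ (S.card : ℝ)).image
                fun S => Sᶜ) := by
        intro S hS
        have hSx : ∑ i ∈ S, a i = x := (Finset.mem_filter.1 hS).2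
        by_cases hbig : (n : ℝ) / 2 - Real.sqrt n ≤ (S.card : ℝ)
        · exact Finset.mem_union_left _ (Finset.mem_filter.2 ⟨Finset.mem_univ _, hSx, hbig⟩)
        · refine Finset.mem_union_right _ (Finset.mem_image.2 ⟨Sᶜ, ?_, compl_compl S⟩)
          refine Finset.mem_filter.2 ⟨Finset.mem_univ _, ?_, ?_⟩
          · have h := Finset.sum_compl_add_sum S a
            linarith
          · have hc : (Sᶜ.card : ℝ) = (n : ℝ) - (S.card : ℝ) := by
              have h1 : Sᶜ.card = n - S.card := by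
                rw [Finset.card_compl, Fintype.card_fin]
              have h2 : S.card ≤ n := by
                have h := Finset.card_le_univ S
                rwa [Fintype.card_fin] at h
              rw [h1, Nat.cast_sub h2]
            rw [hc]
            have hlt : (S.card : ℝ) < (n : ℝ) / 2 - Real.sqrt n := not_le.1 hbig
            linarith
      have h := (Finset.card_le_card hsub).trans (Finset.card_union_le _ _)
      have h2 := Finset.card_image_le (s := (univ : Finset (Finset (Fin n))).filter fun S =>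
        ∑ i ∈ S, a i = ∑ i, a i - x ∧ (n : ℝ) / 2 - Real.sqrt n ≤ (S.card : ℝ))
        (f := fun S => Sᶜ)
      exact_mod_cast h.trans (Nat.add_le_add_left h2 _)
    have hfin := mul_le_mul_of_nonneg_right hsplit
      (show (0 : ℝ) ≤ (n : ℝ) * Real.sqrt n by positivity)
    nlinarith
  · have hn' : (n : ℝ) ≤ 16 := by
      have : n ≤ 16 := by omega
      exact_mod_cast this
    have hcard : (((univ : Finset (Finset (Fin n))).filter fun S => ∑ i ∈ S, a i = x).card : ℝ)
        ≤ 2 ^ n := by
      have h1 := Finset.card_filter_le (univ : Finset (Finset (Fin n)))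
        (fun S => ∑ i ∈ S, a i = x)
      have h2 : (univ : Finset (Finset (Fin n))).card = 2 ^ n := by
        rw [Finset.card_univ, Fintype.card_finset, Fintype.card_fin]
      rw [h2] at h1
      exact_mod_cast h1
    have h4 : Real.sqrt n ≤ 4 := by
      have h16 : Real.sqrt 16 = 4 := by
        rw [show (16 : ℝ) = 4 ^ 2 by norm_num]
        exact Real.sqrt_sq (by norm_num)
      rw [← h16]
      exact Real.sqrt_le_sqrt hn'
    have hsq : (n : ℝ) * Real.sqrt n ≤ 64 := by nlinarith
    have hcard0 : (0 : ℝ) ≤ (((univ : Finset (Finset (Fin n))).filter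
        fun S => ∑ i ∈ S, a i = x).card : ℝ) := Nat.cast_nonneg _
    have h5 : (((univ : Finset (Finset (Fin n))).filter fun S => ∑ i ∈ S, a i = x).card : ℝ)
        * ((n : ℝ) * Real.sqrt n) ≤ 2 ^ n * 64 :=
      mul_le_mul hcard hsq (by positivity) hpow.le
    nlinarith

end Vale.Agent.Lib.P160.H45
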